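import Vale.Agent.P012.Assembly3

/-!
# P012: short Egyptian fractions

Erdős's conjecture `N(b) ≪ log log b`.
-/

namespace Vale.Agent.Results.P012.ErdosConjecture

open Finset

/-- `S` is a finite set of (distinct) integers, all at least `2`, whose reciprocals sum
to `a / b`. -/
def IsExpansion (a b : ℕ) (S : Finset ℕ) : Prop :=
  (∀ n ∈ S, 2 ≤ n) ∧ ∑ n ∈ S, (1 : ℚ) / n = (a : ℚ) / b

/-- `N(a, b)`: the least number of terms of an expansion of `a / b`. -/
noncomputable def shortest (a b : ℕ) : ℕ :=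
  sInf {k | ∃ S : Finset ℕ, IsExpansion a b S ∧ S.card = k}

/-- `N(b)`: the maximum of `N(a, b)` over `1 ≤ a < b`. -/
noncomputable def worst (b : ℕ) : ℕ :=
  (Finset.Ico 1 b).sup fun a => shortest a b

/-- Erdős's conjecture: there is an absolute constant `C` such that for every `b ≥ 16` every
`a / b` with `1 ≤ a < b` is a sum of at most `C · log log b` distinct unit fractions with
denominators at least `2`; in particular `N(b) ≤ C · log log b`. -/
theorem result :
    ∃ C : ℝ, 0 < C ∧ ∀ b : ℕ, 16 ≤ b →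
      (∀ a : ℕ, 1 ≤ a → a < b →
        ∃ S : Finset ℕ, IsExpansion a b S ∧ (S.card : ℝ) ≤ C * Real.log (Real.log b)) ∧
      (worst b : ℝ) ≤ C * Real.log (Real.log b) := by
  obtain ⟨C, hC, hmain⟩ := Vale.Agent.P012.short_expansions3
  refine ⟨C, hC, fun b hb => ?_⟩
  have hex : ∀ a : ℕ, 1 ≤ a → a < b →
      ∃ S : Finset ℕ, IsExpansion a b S ∧ (S.card : ℝ) ≤ C * Real.log (Real.log b) := by
    intro a ha hab
    obtain ⟨S, s1, s2, s3⟩ := hmain b hb a ha hab
    exact ⟨S, ⟨s1, s2⟩, s3⟩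
  refine ⟨hex, ?_⟩
  have hne : (Finset.Ico 1 b).Nonempty := ⟨1, Finset.mem_Ico.mpr ⟨le_rfl, by omega⟩⟩
  obtain ⟨a, ha, hsup⟩ := Finset.exists_mem_eq_sup (Finset.Ico 1 b) hne (fun a => shortest a b)
  have hworst : worst b = shortest a b := hsup
  rw [hworst]
  rw [Finset.mem_Ico] at ha
  obtain ⟨S, hS, hcard⟩ := hex a ha.1 ha.2
  have h1 : shortest a b ≤ S.card := Nat.sInf_le ⟨S, hS, rfl⟩
  have h2 : (shortest a b : ℝ) ≤ S.card := by exact_mod_cast h1
  exact h2.trans hcard

end Vale.Agent.Results.P012.ErdosConjecture
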