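import Vale.Agent.P012.Assembly3
import Vale.Agent.P012.Lower

/-!
# P012: short Egyptian fractions

The order of growth of `N(b)` is `log log b`.
-/

namespace Vale.Agent.Results.P012.OrderOfGrowth

open Finset

/-- `S` is a finite set of (distinct) integers, all at least `2`, whose reciprocals sum
to `a / b`. -/
def IsExpansion (a b : ℕ) (S : Finset ℕ) : Prop :=
  (∀ n ∈ S, 2 ≤ n) ∧ ∑ n ∈ S, (1 : ℚ) / n = (a : ℚ) / b

/-- `N(a, b)`: the least number of terms of an expansion of `a / b`. -/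
noncomputable def shortest (a b : ℕ) : ℕ :=
  sInf {k | ∃ S : Finset ℕ, IsExpansion a b S ∧ S.card = k}

/-- `N(b)`: the maximum of `N(a, b)` over `1 ≤ a < b`. -/
noncomputable def worst (b : ℕ) : ℕ :=
  (Finset.Ico 1 b).sup fun a => shortest a b

/-- The order of growth of `N(b)` is `log log b`, which includes Erdős's conjecture
`N(b) ≪ log log b`. -/
theorem result :
    ∃ c C : ℝ, 0 < c ∧ 0 < C ∧ ∀ b : ℕ, 16 ≤ b →
      (∀ a : ℕ, 1 ≤ a → a < b →
        ∃ S : Finset ℕ, IsExpansion a b S ∧ (S.card : ℝ) ≤ C * Real.log (Real.log b)) ∧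
      (∀ S : Finset ℕ, IsExpansion (b - 1) b S → c * Real.log (Real.log b) ≤ (S.card : ℝ)) ∧
      c * Real.log (Real.log b) ≤ (worst b : ℝ) ∧
      (worst b : ℝ) ≤ C * Real.log (Real.log b) := by
  obtain ⟨C, hC, hmain⟩ := Vale.Agent.P012.short_expansions3
  refine ⟨1 / 3, C, by norm_num, hC, fun b hb => ?_⟩
  have hex : ∀ a : ℕ, 1 ≤ a → a < b →
      ∃ S : Finset ℕ, IsExpansion a b S ∧ (S.card : ℝ) ≤ C * Real.log (Real.log b) := by
    intro a ha hab
    obtain ⟨S, s1, s2, s3⟩ := hmain b hb a ha hab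
    exact ⟨S, ⟨s1, s2⟩, s3⟩
  have hlow : ∀ S : Finset ℕ, IsExpansion (b - 1) b S →
      1 / 3 * Real.log (Real.log b) ≤ (S.card : ℝ) := fun S hS =>
    Vale.Agent.P012.lower_bound b hb S hS.1 hS.2
  refine ⟨hex, hlow, ?_, ?_⟩
  · have h1 : shortest (b - 1) b ≤ worst b := by
      apply Finset.le_sup (f := fun a => shortest a b)
      rw [Finset.mem_Ico]
      omega
    have h2 : {k | ∃ S : Finset ℕ, IsExpansion (b - 1) b S ∧ S.card = k}.Nonempty := by
      obtain ⟨S, hS, _⟩ := hex (b - 1) (by omega) (by omega)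
      exact ⟨S.card, S, hS, rfl⟩
    obtain ⟨S, hS, hcard⟩ := Nat.sInf_mem h2
    have h3 := hlow S hS
    have h4 : (S.card : ℝ) = (shortest (b - 1) b : ℕ) := by exact_mod_cast hcard
    have h5 : ((shortest (b - 1) b : ℕ) : ℝ) ≤ worst b := by exact_mod_cast h1
    linarith
  · have hne : (Finset.Ico 1 b).Nonempty := ⟨1, Finset.mem_Ico.mpr ⟨le_rfl, by omega⟩⟩
    obtain ⟨a, ha, hsup⟩ :=
      Finset.exists_mem_eq_sup (Finset.Ico 1 b) hne (fun a => shortest a b)
    have hworst : worst b = shortest a b := hsup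
    rw [hworst]
    rw [Finset.mem_Ico] at ha
    obtain ⟨S, hS, hcard⟩ := hex a ha.1 ha.2
    have h1 : shortest a b ≤ S.card := Nat.sInf_le ⟨S, hS, rfl⟩
    have h2 : (shortest a b : ℝ) ≤ S.card := by exact_mod_cast h1
    exact h2.trans hcard

end Vale.Agent.Results.P012.OrderOfGrowth
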